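import Mathlib

/-! P057: the parameters of the blocks at the upper levels. -/

namespace Vale.Agent.P057.H587

/-- the size of the modulus -/
theorem log_mod_le (n D : ℕ) (hD : 1 ≤ D) (N M' : ℕ) (hN : N = n.factorial)
    (hM : M' = 2 ^ (D + 2) * N ^ (D + 1) * (D + 1).factorial) :
    2 ≤ M' ∧ Real.log M' ≤ (D : ℝ) ^ 2 * (2 * N + 7) := by
  have hN0 : 1 ≤ N := by rw [hN]; exact Nat.succ_le_of_lt n.factorial_pos
  have hN1 : (1 : ℝ) ≤ N := by exact_mod_cast hN0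
  have hD1 : (1 : ℝ) ≤ D := by exact_mod_cast hD
  constructor
  · rw [hM]
    have h1 : 2 ≤ 2 ^ (D + 2) := by
      calc 2 = 2 ^ 1 := rfl
        _ ≤ 2 ^ (D + 2) := Nat.pow_le_pow_right (by norm_num) (by omega)
    have h2 : 1 ≤ N ^ (D + 1) := Nat.one_le_pow _ _ hN0
    have h3 : 1 ≤ (D + 1).factorial := Nat.succ_le_of_lt (Nat.factorial_pos _)
    calc 2 = 2 * 1 * 1 := rfl
      _ ≤ _ := Nat.mul_le_mul (Nat.mul_le_mul h1 h2) h3
  · have h0 : (M' : ℝ) = 2 ^ (D + 2) * (N : ℝ) ^ (D + 1) * ((D + 1).factorial : ℝ) := by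
      rw [hM]; push_cast; rfl
    have hN0' : (N : ℝ) ≠ 0 := by linarith
    have hf0 : (((D + 1).factorial : ℕ) : ℝ) ≠ 0 := by
      exact_mod_cast (Nat.factorial_pos (D + 1)).ne'
    rw [h0, Real.log_mul (by positivity) hf0, Real.log_mul (by positivity) (by positivity),
      Real.log_pow, Real.log_pow]
    have h1 : Real.log 2 ≤ 1 := by
      have := Real.log_le_sub_one_of_pos (show (0 : ℝ) < 2 by norm_num)
      linarith
    have h2 : Real.log N ≤ N := (Real.log_le_sub_one_of_pos (by linarith)).trans (by linarith)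
    have h3 : Real.log ((D + 1).factorial : ℝ) ≤ (D + 1) * (D + 1) := by
      have h4 : ((D + 1).factorial : ℝ) ≤ ((D + 1 : ℕ) : ℝ) ^ (D + 1) := by
        exact_mod_cast Nat.factorial_le_pow (D + 1)
      have h5 := Real.log_le_log (by positivity) h4
      rw [Real.log_pow] at h5
      have h6 : Real.log ((D + 1 : ℕ) : ℝ) ≤ (D : ℝ) + 1 := by
        have := Real.log_le_sub_one_of_pos (show (0 : ℝ) < ((D + 1 : ℕ) : ℝ) by positivity)
        push_cast at this ⊢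
        linarith
      refine h5.trans ?_
      push_cast at h6 ⊢
      exact mul_le_mul_of_nonneg_left h6 (by positivity)
    have h7 : (((D + 2 : ℕ) : ℝ)) * Real.log 2 ≤ ((D + 2 : ℕ) : ℝ) * 1 :=
      mul_le_mul_of_nonneg_left h1 (by positivity)
    have h8 : (((D + 1 : ℕ) : ℝ)) * Real.log N ≤ ((D + 1 : ℕ) : ℝ) * N :=
      mul_le_mul_of_nonneg_left h2 (by positivity)
    push_cast at h7 h8 ⊢
    nlinarith [mul_nonneg (sub_nonneg.2 hD1) (show (0 : ℝ) ≤ N by linarith),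
      mul_nonneg (mul_nonneg (sub_nonneg.2 hD1) (sub_nonneg.2 hD1))
        (show (0 : ℝ) ≤ N by linarith), mul_nonneg (sub_nonneg.2 hD1) (sub_nonneg.2 hD1)]

theorem real_const (a N : ℝ) (ha : 3 ≤ a) (hN : 1 ≤ N) :
    N * (34 * a ^ 4 * (2 * N + 7) + 3) ≤ 100 * N * (2 * N + 7) * (a + 1 + N) ^ 4 := by
  have hab : a ^ 4 ≤ (a + 1 + N) ^ 4 := pow_le_pow_left₀ (by linarith) (by linarith) 4
  have h1 : (1 : ℝ) ≤ (a + 1 + N) ^ 4 := one_le_pow₀ (by linarith)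
  generalize (a + 1 + N) ^ 4 = Q at hab h1 ⊢
  generalize a ^ 4 = P at hab ⊢
  have h2 : (0 : ℝ) ≤ N * (2 * N + 7) := by positivity
  have h5 : 34 * (N * (2 * N + 7)) * P ≤ 34 * (N * (2 * N + 7)) * Q :=
    mul_le_mul_of_nonneg_left hab (by positivity)
  have h7 : N ≤ N * (2 * N + 7) := by nlinarith only [hN]
  have h8 : N * (2 * N + 7) * 1 ≤ N * (2 * N + 7) * Q := mul_le_mul_of_nonneg_left h1 h2
  nlinarith only [h5, h7, h8, h2]

theorem real_big (N c B κ : ℝ) (hN : 1 ≤ N) (hc : 0 ≤ c) (hκ1 : 1 ≤ κ) (hBc : N * (c + 3) ≤ B)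
    (hBκ : B ≤ κ) : c * κ ^ 7 ≤ κ ^ 10 / N - 2 := by
  rw [le_sub_iff_add_le, le_div_iff₀ (by linarith)]
  have h1 : (1 : ℝ) ≤ κ ^ 7 := one_le_pow₀ hκ1
  have h2 : (1 : ℝ) ≤ κ ^ 2 := one_le_pow₀ hκ1
  have h3 : (c * κ ^ 7 + 2) * N ≤ (N * (c + 3)) * κ ^ 7 := by
    have h31 : N * 1 ≤ N * κ ^ 7 := mul_le_mul_of_nonneg_left h1 (by linarith)
    have h32 : (N * (c + 3)) * κ ^ 7 = c * κ ^ 7 * N + 3 * (N * κ ^ 7) := by ring
    have h33 : (c * κ ^ 7 + 2) * N = c * κ ^ 7 * N + 2 * N := by ring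
    rw [h32, h33]
    linarith
  have h4 : (N * (c + 3)) * κ ^ 7 ≤ κ * κ ^ 7 :=
    mul_le_mul_of_nonneg_right (hBc.trans hBκ) (by positivity)
  have h5 : κ * κ ^ 7 ≤ κ ^ 10 := by
    calc κ * κ ^ 7 = κ ^ 8 * 1 := by ring
      _ ≤ κ ^ 8 * κ ^ 2 := mul_le_mul_of_nonneg_left h2 (by positivity)
      _ = κ ^ 10 := by ring
  linarith

theorem real_room (a N κ : ℝ) (ha : 3 ≤ a) (hN : 1 ≤ N) (hκ1 : 1 ≤ κ)
    (hBκ : 100 * N * (2 * N + 7) * (a + 1 + N) ^ 4 ≤ κ) :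
    100 * ((a + 1 + N) * κ) ^ 3 * N < κ ^ 10 := by
  have h6 : 100 * ((a + 1 + N) * κ) ^ 3 * N = (100 * N * (a + 1 + N) ^ 3) * κ ^ 3 := by ring
  have h8 : (0 : ℝ) < 100 * N * (a + 1 + N) ^ 3 := by positivity
  have h7 : 100 * N * (a + 1 + N) ^ 3 * 1 < κ := by
    refine lt_of_lt_of_le ?_ hBκ
    have h9 : 100 * N * (2 * N + 7) * (a + 1 + N) ^ 4 =
        100 * N * (a + 1 + N) ^ 3 * ((2 * N + 7) * (a + 1 + N)) := by ring
    rw [h9]
    refine mul_lt_mul_of_pos_left ?_ h8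
    nlinarith only [ha, hN]
  have h10 : (100 * N * (a + 1 + N) ^ 3) * κ ^ 3 < κ * κ ^ 3 :=
    mul_lt_mul_of_pos_right (by linarith) (by positivity)
  have h11 : κ * κ ^ 3 ≤ κ ^ 10 := by
    calc κ * κ ^ 3 = κ ^ 4 := by ring
      _ ≤ κ ^ 10 := pow_le_pow_right₀ hκ1 (by norm_num)
  rw [h6]
  exact h10.trans_le h11

theorem real_last (a d κ e l N : ℝ) (ha : 3 ≤ a) (hd0 : 0 ≤ d) (hd : d ≤ a * κ) (hκ1 : 1 ≤ κ)
    (he0 : 0 ≤ e) (he : e ≤ 16 * κ) (hl0 : 0 ≤ l) (hN : 1 ≤ N) (hl : l ≤ κ ^ 2 * (2 * N + 7)) :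
    2 * d ^ 2 * ((d * d * e + 1) * l) ≤ 34 * a ^ 4 * (2 * N + 7) * κ ^ 7 := by
  have h2 : d * d ≤ (a * κ) * (a * κ) := mul_le_mul hd hd hd0 (by positivity)
  have h3 : d * d * e ≤ (a * κ) * (a * κ) * (16 * κ) := mul_le_mul h2 he he0 (by positivity)
  have h5 : (1 : ℝ) ≤ a ^ 2 := one_le_pow₀ (by linarith)
  have h6 : (1 : ℝ) ≤ κ ^ 3 := one_le_pow₀ hκ1
  have h4 : (1 : ℝ) ≤ a ^ 2 * κ ^ 3 := one_le_mul_of_one_le_of_one_le h5 h6
  have h1 : d * d * e + 1 ≤ 17 * a ^ 2 * κ ^ 3 := by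
    have h9 : (a * κ) * (a * κ) * (16 * κ) = 16 * (a ^ 2 * κ ^ 3) := by ring
    rw [h9] at h3
    linarith
  have h7 : d ^ 2 ≤ (a * κ) ^ 2 := pow_le_pow_left₀ hd0 hd 2
  calc 2 * d ^ 2 * ((d * d * e + 1) * l)
      ≤ 2 * (a * κ) ^ 2 * ((17 * a ^ 2 * κ ^ 3) * (κ ^ 2 * (2 * N + 7))) := by
        refine mul_le_mul (by linarith) ?_ (by positivity) (by positivity)
        exact mul_le_mul h1 hl hl0 (by positivity)
    _ = 34 * a ^ 4 * (2 * N + 7) * κ ^ 7 := by ring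

theorem params (n : ℕ) (hn : 2 ≤ n) : ∃ K0 : ℕ, ∀ k D : ℕ, K0 ≤ k → 1 ≤ D → D ^ 10 ≤ k →
    ∀ N E r d M' L : ℕ, N = n.factorial → E = n * (n - 1) / 2 → r = (D + 1) / E + 1 →
      d = r * E → M' = 2 ^ (D + 2) * N ^ (D + 1) * (D + 1).factorial → L = k / N - 1 →
      1 ≤ d ∧ D + 1 ≤ d ∧ 2 ≤ M' ∧ 100 * (d + D + N) ^ 3 * N < k ∧ d < L ∧
      ∃ w : ℕ, L ^ (d * d) < 2 ^ w ∧ 2 * (d : ℝ) ^ 2 * ((w + 1) * Real.log M') < L := by
  have hE1 : 1 ≤ n * (n - 1) / 2 := by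
    obtain ⟨m, rfl⟩ := Nat.exists_eq_add_of_le hn
    have : 2 ≤ (2 + m) * (2 + m - 1) := by
      have h1 : 2 + m - 1 = 1 + m := by omega
      rw [h1]
      nlinarith
    omega
  set E0 := n * (n - 1) / 2 with hE0
  set N0 := n.factorial with hN0
  have hN01 : 1 ≤ N0 := Nat.succ_le_of_lt n.factorial_pos
  set b : ℕ := E0 + 3 + N0 with hb
  set B : ℕ := 100 * N0 * (2 * N0 + 7) * b ^ 4 with hB
  refine ⟨B ^ 10, fun k D hk hD hDk N E r d M' L hN hE hr hd hM hL => ?_⟩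
  subst hN hE
  obtain ⟨hM2, hMl⟩ := log_mod_le n D hD _ M' hN0 hM
  -- the size of `d`
  have hd1 : D + 1 ≤ d := by
    rw [hd, hr, add_mul, one_mul]
    have := Nat.lt_div_mul_add (a := D + 1) (b := E0) hE1
    omega
  have hd2 : d ≤ (E0 + 2) * D := by
    rw [hd, hr, add_mul, one_mul]
    have h1 := Nat.div_mul_le_self (D + 1) E0
    nlinarith
  -- the real parameter
  have hkpos : 0 < k := lt_of_lt_of_le (by positivity) hDk
  set κ : ℝ := (k : ℝ) ^ ((1 : ℝ) / 10) with hκ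
  have hκ10 : κ ^ 10 = k := by
    rw [hκ, ← Real.rpow_natCast, ← Real.rpow_mul (by positivity)]
    norm_num
  have hκ0 : 0 ≤ κ := by positivity
  have hDκ : (D : ℝ) ≤ κ := by
    refine le_of_pow_le_pow_left₀ (n := 10) (by norm_num) hκ0 ?_
    rw [hκ10]
    exact_mod_cast hDk
  have hBκ : (B : ℝ) ≤ κ := by
    refine le_of_pow_le_pow_left₀ (n := 10) (by norm_num) hκ0 ?_
    rw [hκ10]
    exact_mod_cast hk
  have hD1 : (1 : ℝ) ≤ D := by exact_mod_cast hD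
  have hκ1 : 1 ≤ κ := hD1.trans hDκ
  set a : ℝ := (E0 : ℝ) + 2 with ha
  have hE1r : (1 : ℝ) ≤ E0 := by exact_mod_cast hE1
  have hN1r : (1 : ℝ) ≤ N0 := by exact_mod_cast hN01
  have ha3 : 3 ≤ a := by linarith
  have hdκ : (d : ℝ) ≤ a * κ := by
    have h1 : (d : ℝ) ≤ (E0 + 2) * D := by exact_mod_cast hd2
    exact h1.trans (mul_le_mul_of_nonneg_left hDκ (by positivity))
  -- the logarithm of `k`
  set ℓ := Nat.log 2 k with hℓ
  have hℓκ : (ℓ : ℝ) + 1 ≤ 16 * κ := by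
    have h1 : (2 : ℝ) ^ ℓ ≤ k := by exact_mod_cast Nat.pow_log_le_self 2 hkpos.ne'
    have h2 := Real.log_le_log (by positivity) h1
    rw [Real.log_pow, ← hκ10, Real.log_pow] at h2
    have h3 : Real.log κ ≤ κ - 1 := Real.log_le_sub_one_of_pos (by linarith)
    have h4 := Real.log_two_gt_d9
    have h5 : (0 : ℝ) ≤ ℓ := by positivity
    push_cast at h2
    nlinarith
  -- the size of `L`
  have hLr : κ ^ 10 / N0 - 2 < L := by
    have h1 : k < N0 * (k / N0 + 1) := Nat.lt_mul_div_succ k hN01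
    have h2 : (k : ℝ) < N0 * ((k / N0 : ℕ) + 1) := by exact_mod_cast h1
    have h3 : ((k / N0 : ℕ) : ℝ) ≤ L + 1 := by
      have : k / N0 ≤ L + 1 := by omega
      exact_mod_cast this
    rw [hκ10, sub_lt_iff_lt_add, div_lt_iff₀ (by linarith)]
    nlinarith
  set c : ℝ := 34 * a ^ 4 * (2 * N0 + 7) with hc
  have hbr : (b : ℝ) = a + 1 + N0 := by rw [hb, ha]; push_cast; ring
  have hBr : (B : ℝ) = 100 * N0 * (2 * N0 + 7) * (a + 1 + N0) ^ 4 := by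
    rw [hB]; push_cast; rw [hbr]
  have hBc : N0 * (c + 3) ≤ B := by
    rw [hBr]
    exact real_const a N0 ha3 hN1r
  have hc0 : (0 : ℝ) ≤ c := by rw [hc]; positivity
  have hLbig : c * κ ^ 7 < L := lt_of_le_of_lt (real_big N0 c B κ hN1r hc0 hκ1 hBc hBκ) hLr
  refine ⟨by omega, hd1, hM2, ?_, ?_, d * d * (ℓ + 1), ?_, ?_⟩
  · -- room
    have h1 : ((d : ℝ) + D + N0) ≤ (a + 1 + N0) * κ := by
      have h2 : (N0 : ℝ) * 1 ≤ N0 * κ := mul_le_mul_of_nonneg_left hκ1 (by linarith only [hN1r])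
      have h3 : (a + 1 + N0) * κ = a * κ + κ + N0 * κ := by ring
      rw [h3]
      linarith only [h2, hdκ, hDκ]
    have h2 : ((d : ℝ) + D + N0) ^ 3 ≤ ((a + 1 + N0) * κ) ^ 3 :=
      pow_le_pow_left₀ (by positivity) h1 3
    have h4 : 100 * ((d : ℝ) + D + N0) ^ 3 * N0 < k := by
      rw [← hκ10]
      refine lt_of_le_of_lt ?_ (real_room a N0 κ ha3 hN1r hκ1 (by rw [← hBr]; exact hBκ))
      gcongr
    exact_mod_cast h4
  · have h1 : (d : ℝ) < L := by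
      refine lt_of_le_of_lt ?_ hLbig
      refine hdκ.trans ?_
      have h2 : κ ≤ κ ^ 7 := le_self_pow₀ hκ1 (by norm_num)
      have h3 : a ≤ c := by
        rw [hc]
        have h4 : a ≤ a ^ 4 := le_self_pow₀ (by linarith only [ha3]) (by norm_num)
        have h5 : (0 : ℝ) ≤ a ^ 4 := by positivity
        have h6 : (0 : ℝ) ≤ a ^ 4 * N0 := by positivity
        nlinarith only [h4, h5, h6]
      exact mul_le_mul h3 h2 hκ0 hc0
    exact_mod_cast h1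
  · have h1 : L < 2 ^ (ℓ + 1) := by
      have h2 : k < 2 ^ (ℓ + 1) := Nat.lt_pow_succ_log_self (by norm_num) k
      have h3 : k / N0 ≤ k := Nat.div_le_self _ _
      omega
    have h5 : 0 < d := by omega
    have h4 := Nat.pow_lt_pow_left h1 (n := d * d) (Nat.mul_pos h5 h5).ne'
    rw [mul_comm (d * d) (ℓ + 1)]
    rwa [← pow_mul] at h4
  · refine lt_of_le_of_lt ?_ hLbig
    have h3 : Real.log M' ≤ κ ^ 2 * (2 * N0 + 7) := by
      refine hMl.trans (mul_le_mul_of_nonneg_right ?_ (by positivity))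
      exact pow_le_pow_left₀ (by positivity) hDκ 2
    have h4 : 0 ≤ Real.log M' := Real.log_nonneg (by
      have : 1 ≤ M' := by omega
      exact_mod_cast this)
    have h5 := real_last a d κ (ℓ + 1) (Real.log M') N0 ha3 (by positivity) hdκ hκ1
      (by positivity) hℓκ h4 hN1r h3
    push_cast
    exact h5

end Vale.Agent.P057.H587
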